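import Vale.Agent.P040.All.Ext

/-! # Extreme values of `NN` when one side of a circle follows `x` directly -/

namespace Vale.Agent.P040.Sph34

open Finset Vale.Agent.P040.All

variable {k x : ℕ} {κ : ℕ → ℤ} {S : ℕ → Prop} [DecidablePred S]

/-- a block of at most `k` elements directly after `x` consists of followers -/
lemma foll_of_blk (hκ : Inj (2 * k + 1) κ) (h : Blk (2 * k + 1) κ x S)
    (hc : ((range (2 * k + 1)).filter S).card ≤ k) {y : ℕ} (hy : y < 2 * k + 1) (hyS : S y) :
    Foll k (pos (2 * k + 1) κ) x y := by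
  have h3 := blk_c hκ h hy hyS
  left
  exact ⟨h3.1, h3.2.trans (by omega)⟩

/-- if at least `k` elements come directly after `x`, nothing else is a follower -/
lemma not_foll_of_blk (hκ : Inj (2 * k + 1) κ) (h : Blk (2 * k + 1) κ x S)
    (hc : k ≤ ((range (2 * k + 1)).filter S).card) {z : ℕ} (hz : z < 2 * k + 1) (hzx : z ≠ x)
    (hzS : ¬ S z) : ¬ Foll k (pos (2 * k + 1) κ) x z := by
  intro hF
  have ha := blk_a h
  rcases lt_trichotomy (κ x) (κ z) with h1 | h1 | h1
  · have hb := blk_b h hz hzS h1
    rcases hF with hF | hF <;> omega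
  · exact hzx (hκ z hz x h.hx h1.symm)
  · have hp := pos_lt_pos (n := 2 * k + 1) hz h1
    rcases hF with hF | hF <;> omega

/-- all smaller labels are followers -/
lemma NN_of_small_foll (hκ : Inj (2 * k + 1) κ) (hx : x < 2 * k + 1)
    (h : ∀ y < x, Foll k (pos (2 * k + 1) κ) x y) : NN k κ x + x = k := by
  have h1 := NN_add_small hκ hx
  have h2 : (range x).filter (fun y => Foll k (pos (2 * k + 1) κ) x y) = range x := by
    apply filter_true_of_mem
    intro y hy
    exact h y (mem_range.1 hy)
  rw [h2, card_range] at h1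
  exact h1

/-- no smaller label is a follower -/
lemma NN_of_small_not_foll (hκ : Inj (2 * k + 1) κ) (hx : x < 2 * k + 1)
    (h : ∀ y < x, ¬ Foll k (pos (2 * k + 1) κ) x y) : NN k κ x = k := by
  have h1 := NN_add_small hκ hx
  have h2 : (range x).filter (fun y => Foll k (pos (2 * k + 1) κ) x y) = ∅ := by
    rw [filter_eq_empty_iff]
    intro y hy
    exact h y (mem_range.1 hy)
  rw [h2, card_empty] at h1
  exact h1

/-- all larger labels are followers -/
lemma NN_of_large_foll (hx : x < 2 * k + 1)
    (h : ∀ y, x < y → y < 2 * k + 1 → Foll k (pos (2 * k + 1) κ) x y) : NN k κ x = 2 * k - x := by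
  have h2 : (range (2 * k + 1)).filter (fun y => x < y ∧ Foll k (pos (2 * k + 1) κ) x y)
      = (range (2 * k + 1)).filter (fun y => x < y) := by
    apply filter_congr
    intro y hy
    rw [mem_range] at hy
    exact ⟨fun hh => hh.1, fun hxy => ⟨hxy, h y hxy hy⟩⟩
  unfold NN NNp
  rw [h2, card_gt_filter hx]
  omega

/-- no larger label is a follower -/
lemma NN_of_large_not_foll
    (h : ∀ y, x < y → y < 2 * k + 1 → ¬ Foll k (pos (2 * k + 1) κ) x y) : NN k κ x = 0 := by
  unfold NN NNp
  rw [card_eq_zero, filter_eq_empty_iff]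
  intro y hy hcon
  exact h y hcon.1 (mem_range.1 hy) hcon.2

/-- the complement of `T` (without `x`) has at least `k` elements -/
lemma card_compl {T : ℕ → Prop} [DecidablePred T] (hx : x < 2 * k + 1) (hxT : ¬ T x)
    (hT : ((range (2 * k + 1)).filter T).card ≤ k) :
    k ≤ ((range (2 * k + 1)).filter fun y => y ≠ x ∧ ¬ T y).card := by
  have h1 := card_filter_add_card_filter_not (s := range (2 * k + 1)) T
  rw [card_range] at h1
  have h2 : (range (2 * k + 1)).filter (fun y => ¬ T y)
      = insert x ((range (2 * k + 1)).filter fun y => y ≠ x ∧ ¬ T y) := by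
    ext y
    simp only [mem_filter, mem_insert, mem_range]
    constructor
    · rintro ⟨h3, h4⟩
      by_cases h5 : y = x
      · exact Or.inl h5
      · exact Or.inr ⟨h3, h5, h4⟩
    · rintro (h3 | ⟨h3, _, h4⟩)
      · subst h3
        exact ⟨hx, hxT⟩
      · exact ⟨h3, h4⟩
  have h3 : x ∉ (range (2 * k + 1)).filter fun y => y ≠ x ∧ ¬ T y := by
    simp
  rw [h2, card_insert_of_notMem h3] at h1
  omega

/-- one direction: a side of the circle follows `x` directly in `κ` -/
lemma NN_side_aux {T : ℕ → Prop} [DecidablePred T] (hκ : Inj (2 * k + 1) κ) (hx : x < 2 * k + 1)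
    (hxT : ¬ T x) (hT : ((range (2 * k + 1)).filter T).card ≤ k)
    (hlab : (x ≤ k ∧ ∀ y < x, T y) ∨ (k < x ∧ ∀ y, x < y → y < 2 * k + 1 → T y))
    (hblk : Blk (2 * k + 1) κ x T ∨ Blk (2 * k + 1) κ x (fun y => y ≠ x ∧ ¬ T y)) :
    NN k κ x = k - x ∨ NN k κ x = min k (2 * k - x) := by
  rcases hblk with hb | hb
  · rcases hlab with ⟨hk, hl⟩ | ⟨hk, hl⟩
    · have := NN_of_small_foll hκ hx (fun y hy => foll_of_blk hκ hb hT (by omega) (hl y hy))
      left; omega
    · have := NN_of_large_foll (κ := κ) hx (fun y hy hy2 => foll_of_blk hκ hb hT hy2 (hl y hy hy2))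
      right; omega
  · have hc := card_compl hx hxT hT
    rcases hlab with ⟨hk, hl⟩ | ⟨hk, hl⟩
    · have := NN_of_small_not_foll hκ hx (fun y hy =>
        not_foll_of_blk hκ hb hc (by omega) (by omega) (fun h => h.2 (hl y hy)))
      right; omega
    · have := NN_of_large_not_foll (k := k) (κ := κ) (x := x) (fun y hy hy2 =>
        not_foll_of_blk hκ hb hc hy2 (by omega) (fun h => h.2 (hl y hy hy2)))
      left; omega

/-- **Abstract extremeness**: `T` = the side of a circle through `x` that contains at most `k` elements and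
all smaller labels (`x ≤ k`), resp. all larger labels (`k < x`); one of the two sides follows `x` directly in
the sequence `κ` or in the reversed sequence.  Then `NN k κ x` is extreme. -/
theorem NN_extreme_side {T : ℕ → Prop} [DecidablePred T] (hκ : Inj (2 * k + 1) κ)
    (hx : x < 2 * k + 1) (hxT : ¬ T x) (hT : ((range (2 * k + 1)).filter T).card ≤ k)
    (hlab : (x ≤ k ∧ ∀ y < x, T y) ∨ (k < x ∧ ∀ y, x < y → y < 2 * k + 1 → T y))
    (hblk : Blk (2 * k + 1) κ x T ∨ Blk (2 * k + 1) κ x (fun y => y ≠ x ∧ ¬ T y) ∨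
      Blk (2 * k + 1) (fun y => - κ y) x T ∨
      Blk (2 * k + 1) (fun y => - κ y) x (fun y => y ≠ x ∧ ¬ T y)) :
    NN k κ x = k - x ∨ NN k κ x = min k (2 * k - x) := by
  rcases hblk with hb | hb | hb | hb
  · exact NN_side_aux hκ hx hxT hT hlab (Or.inl hb)
  · exact NN_side_aux hκ hx hxT hT hlab (Or.inr hb)
  · have hn := NN_neg hκ hx
    have := NN_side_aux (inj_neg hκ) hx hxT hT hlab (Or.inl hb)
    rcases this with h | h
    · right; omega
    · left; omega
  · have hn := NN_neg hκ hx
    have := NN_side_aux (inj_neg hκ) hx hxT hT hlab (Or.inr hb)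
    rcases this with h | h
    · right; omega
    · left; omega

end Vale.Agent.P040.Sph34
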